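import Vale.Agent.P220.R2.H562.S.Final
import Vale.Agent.P220.R2.H562.C.Final

/-!
Nearby Lagrangians over the product of two spheres of the same dimension, with the symmetry of the
diagonal rotations, and over its complex analogue, with the symmetry of the unitary group.
-/

namespace Vale.Agent.Results.P220.DiagonalSpheres

open Vale.Agent.P220.R2.H562.S Vale.Agent.P220.R2.H562.C

/-- Let `V` be a Euclidean space.

(1) If `V` has dimension `m + 1`, `m ≥ 2`, and `S^m` is its unit sphere, then a closed exact
Lagrangian in the cotangent bundle of `S^m × S^m ⊂ V ⊕ V` that is invariant under the diagonal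
action `(x, y) ↦ (g x, g y)` of the rotations `g` of `V` is Hamiltonian isotopic to the zero
section.

(2) If `V` has dimension `2 n`, `n ≥ 2`, and an orthogonal complex structure `J`, and `Q` is the
manifold, of dimension `4 n - 3`, of the unit vectors `(x, y)` of `V ⊕ V` with `x` orthogonal to `y`
and to `J y`, then a closed exact Lagrangian in the cotangent bundle of `Q` that is invariant under
the diagonal action of the unitary group is Hamiltonian isotopic to the zero section. -/
theorem result {V : Type} [NormedAddCommGroup V] [InnerProductSpace ℝ V]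
    [FiniteDimensional ℝ V] :
    (∀ m : ℕ, Module.finrank ℝ V = m + 1 → 2 ≤ m →
      NearbyInvariant (2 * m) (TwoSph V) IsRotation) ∧
    (∀ n : ℕ, Module.finrank ℝ V = 2 * n → 2 ≤ n → ∀ J : V ≃ₗᵢ[ℝ] V, (∀ x, J (J x) = -x) →
      NearbyInvariant (4 * n - 3) (OrthPairs J) (IsUnitary J)) :=
  ⟨fun _ hm h2 _ hL hinv => main_unit hm h2 hL hinv,
    fun _ hn h2 _ hJ _ hL hinv => main_pairs hn h2 hJ hL hinv⟩

end Vale.Agent.Results.P220.DiagonalSpheres
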