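import Vale.Agent.P220.R2.H57.B.Main

/-!
Nearby Lagrangians over an arbitrary closed manifold that stay embedded when all but one momentum
is forgotten.
-/

namespace Vale.Agent.Results.P220.MomentumEmbedded

open Vale.Agent.P220.R2.H57

/-- Let `Q` be a closed connected manifold and `X` any smooth vector field on `Q`. A closed exact
Lagrangian `L ⊂ T*Q` on which `(q, p) ↦ (q, p(X))` is an injective immersion is Hamiltonian
isotopic to the zero section. -/
theorem result {E : Type} [NormedAddCommGroup E] [InnerProductSpace ℝ E] [FiniteDimensional ℝ E]
    {n : ℕ} {Q : Set E} {L : Set (E × E)} {X : E → E} (hQ : IsClosedManifold n Q)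
    (hL : IsClosedExactLagrangian n Q L) (h : IsMomentumEmbedded Q L X) : HamIsotopicToZero Q L :=
  main_any hQ hL h

end Vale.Agent.Results.P220.MomentumEmbedded
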