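import Vale.Agent.P220.R2.H57Q.Main

/-!
Nearby Lagrangians over quotients of spheres.
-/

namespace Vale.Agent.Results.P220.QuotientManifolds

open Vale.Agent.P220.R2.H57 Vale.Agent.P220.R2.H57Q

/-- Let `S^n ⊂ E`, `n ≥ 2`, be the unit sphere of a Euclidean space `E`, and let `Q` be a closed
connected `m`-dimensional submanifold of a Euclidean space `E'` which is a quotient of `S^n`: a
smooth map `P : E → E'` restricts to a submersion of `S^n` onto `Q` whose fibres are the orbits of a
set `Γ` of linear isometries of `E` (`S^n`, `RP^n`, lens spaces and all space forms `S^n/Γ`, `CP^m`,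
`HP^m`). Let `K ⊂ E` be a linear subspace preserved by `Γ`, and let `L ⊂ T*Q` be a closed exact
Lagrangian whose pullback `PullBack P L ⊂ T*S^n` has one of the following properties:
(a) for all `(q, p)` in it the components of `q` and `p` in `K` are linearly dependent, and so are
the components in the orthogonal complement of `K`, or
(b) it is invariant under the flows of linear isometries which, at each point of the sphere,
generate the tangent space of the orbit of `SO(K) × SO(Kᗮ)`.
Then `L` is Hamiltonian isotopic to the zero section of `T*Q`. -/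
theorem result {E : Type} [NormedAddCommGroup E] [InnerProductSpace ℝ E] [FiniteDimensional ℝ E]
    {E' : Type} [NormedAddCommGroup E'] [InnerProductSpace ℝ E'] [FiniteDimensional ℝ E']
    {n m : ℕ} (hn : Module.finrank ℝ E = n + 1) (h2 : 2 ≤ n)
    {Q : Set E'} (hQ : IsClosedManifold m Q) {P : E → E'} {Γ : Set (E ≃ₗᵢ[ℝ] E)}
    (hP : IsSphereQuotient Q P Γ) (K : Submodule ℝ E) (hK : ∀ g ∈ Γ, ∀ x ∈ K, g x ∈ K)
    {L : Set (E' × E')} (hL : IsClosedExactLagrangian m Q L)
    (h : (∀ z ∈ PullBack P L,
        ¬ LinearIndependent ℝ ![K.starProjection z.1, K.starProjection z.2] ∧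
        ¬ LinearIndependent ℝ ![Kᗮ.starProjection z.1, Kᗮ.starProjection z.2]) ∨
      ∀ q ∈ Metric.sphere (0 : E) 1, ∀ v w : E, ((v ∈ K ∧ w ∈ K) ∨ (v ∈ Kᗮ ∧ w ∈ Kᗮ)) →
        ∃ A : E →L[ℝ] E, (∀ x, (inner ℝ (A x) x : ℝ) = 0) ∧
          A q = (inner ℝ v q : ℝ) • w - (inner ℝ w q : ℝ) • v ∧
          ∀ z ∈ PullBack P L, (A z.1, A z.2) ∈ Tan (PullBack P L) z) :
    HamIsotopicToZero Q L :=
  Vale.Agent.P220.R2.H57Q.main hn h2 hQ hP K hK hL h

end Vale.Agent.Results.P220.QuotientManifolds
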