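import Vale.Agent.P220.R2.H180.T.Sym

/-!
Nearby Lagrangians over spheres and their quotients.
-/

namespace Vale.Agent.Results.P220.SphereQuotients

open Vale.Agent.P220.R2.H57

/-- Let `S^n ⊂ E`, `n ≥ 2`, be the unit sphere of a Euclidean space `E`, let `K ⊂ E` be a linear
subspace and `L ⊂ T*S^n` a closed exact Lagrangian such that (a) for all `(q, p) ∈ L` the
components of `q` and `p` in `K` are linearly dependent, and so are the components in the orthogonal
complement of `K`, or (b) `L` is invariant under the flows of linear isometries which, at each point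
of the sphere, generate the tangent space of the orbit of `SO(K) × SO(Kᗮ)`. Let `Γ` be a compact
group that acts on `E` by linear isometries and preserves `K` and `L` (it need not act freely or
effectively). Then `L` is the image of the zero section under the time-one map of the flow of a
`Γ`-invariant Hamiltonian. -/
theorem result {E : Type} [NormedAddCommGroup E] [InnerProductSpace ℝ E] [FiniteDimensional ℝ E]
    {n : ℕ} (hn : Module.finrank ℝ E = n + 1) (h2 : 2 ≤ n) (K : Submodule ℝ E)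
    {L : Set (E × E)} (hL : IsClosedExactLagrangian n (Metric.sphere (0 : E) 1) L)
    (h : (∀ z ∈ L, ¬ LinearIndependent ℝ ![K.starProjection z.1, K.starProjection z.2] ∧
        ¬ LinearIndependent ℝ ![Kᗮ.starProjection z.1, Kᗮ.starProjection z.2]) ∨
      ∀ q ∈ Metric.sphere (0 : E) 1, ∀ v w : E, ((v ∈ K ∧ w ∈ K) ∨ (v ∈ Kᗮ ∧ w ∈ Kᗮ)) →
        ∃ A : E →L[ℝ] E, (∀ x, (inner ℝ (A x) x : ℝ) = 0) ∧
          A q = (inner ℝ v q : ℝ) • w - (inner ℝ w q : ℝ) • v ∧
          ∀ z ∈ L, (A z.1, A z.2) ∈ Tan L z)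
    {Γ : Type} [Group Γ] [TopologicalSpace Γ] [IsTopologicalGroup Γ] [CompactSpace Γ]
    (σ : Γ →* (E ≃ₗᵢ[ℝ] E)) (hσ : ∀ x, Continuous fun g => σ g x)
    (hK : ∀ g, ∀ x ∈ K, σ g x ∈ K)
    (hΓ : ∀ g, ∀ z ∈ L, (σ g z.1, σ g z.2) ∈ L) :
    ∃ (H : ℝ × (E × E) → ℝ) (φ : ℝ → E × E → E × E), IsHam (Metric.sphere (0 : E) 1) H ∧
      (∀ g s z, H (s, (σ g z.1, σ g z.2)) = H (s, z)) ∧
      IsHamFlow (Metric.sphere (0 : E) 1) H φ ∧
      φ 1 '' {z | z.1 ∈ Metric.sphere (0 : E) 1 ∧ z.2 = 0} = L := by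
  refine Vale.Agent.P220.R2.H180.T.main_eq hn h2 K hL ?_ ?_ σ hσ hK hΓ
  · rcases h with h | h
    · exact Vale.Agent.P220.R2.H180.T.mom_of_dep K fun z hz => (h z hz).1
    · exact Vale.Agent.P220.R2.H180.T.mom_of_sym K hL fun q hq v hv w hw =>
        h q hq v w (Or.inl ⟨hv, hw⟩)
  · rcases h with h | h
    · exact Vale.Agent.P220.R2.H180.T.mom_of_dep Kᗮ fun z hz => (h z hz).2
    · exact Vale.Agent.P220.R2.H180.T.mom_of_sym Kᗮ hL fun q hq v hv w hw =>
        h q hq v w (Or.inr ⟨hv, hw⟩)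

end Vale.Agent.Results.P220.SphereQuotients
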